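import Vale.Agent.P109.C443.Orbit
import Mathlib.MeasureTheory.Constructions.BorelSpace.ContinuousLinearMap
import Mathlib.MeasureTheory.Measure.Lebesgue.EqHaar
import Mathlib.MeasureTheory.Function.SpecialFunctions.Basic
import Mathlib.MeasureTheory.Function.SpecialFunctions.Inner

/-!
P109, block S1a (helper443): measurability of the Gram log-determinants.
-/

set_option linter.unusedSectionVars false

namespace Vale.Agent.P109.C443

open scoped RealInnerProductSpace
open Module MeasureTheory

variable {E : Type*} [NormedAddCommGroup E] [InnerProductSpace ℝ E] [FiniteDimensional ℝ E]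
  [MeasurableSpace E] [BorelSpace E]
variable {Ω : Type*} [MeasurableSpace Ω]

theorem measurable_apply {Dm : Ω → E →L[ℝ] E} (hD : ∀ v, Measurable fun x => Dm x v)
    {g : Ω → E} (hg : Measurable g) : Measurable fun x => Dm x (g x) := by
  have b := stdOrthonormalBasis ℝ E
  have h1 : ∀ x, Dm x (g x) = ∑ i, ⟪b i, g x⟫ • Dm x (b i) := by
    intro x
    conv_lhs => rw [← b.sum_repr' (g x)]
    rw [map_sum]
    exact Finset.sum_congr rfl fun i _ => by rw [map_smul]
  simp_rw [h1]
  refine Finset.measurable_sum _ fun i _ => ?_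
  exact (Measurable.inner measurable_const hg).smul (hD _)

theorem measurable_fw {Dm : Ω → E →L[ℝ] E} {S : Ω → Ω} (hD : ∀ v, Measurable fun x => Dm x v)
    (hS : Measurable S) (k : ℕ) (v : E) : Measurable fun x => fw Dm S k x v := by
  induction k with
  | zero => simp
  | succ k ih =>
    have h1 : ∀ v, Measurable fun x => Dm (S^[k] x) v := fun v => (hD v).comp (hS.iterate k)
    exact measurable_apply (Dm := fun x => Dm (S^[k] x)) h1 ih

theorem measurable_det_Gm {Dm : Ω → E →L[ℝ] E} {S : Ω → Ω}
    (hD : ∀ v, Measurable fun x => Dm x v) (hS : Measurable S) (m : ℕ) :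
    Measurable fun x => LinearMap.det (Gm Dm S m x) := by
  have b := stdOrthonormalBasis ℝ E
  have h1 : ∀ x, LinearMap.det (Gm Dm S m x)
      = ∑ σ : Equiv.Perm (Fin (finrank ℝ E)), ((Equiv.Perm.sign σ : ℤ) : ℝ) *
        ∏ i, LinearMap.toMatrix b.toBasis b.toBasis (Gm Dm S m x) (σ i) i := by
    intro x
    rw [← LinearMap.det_toMatrix b.toBasis, Matrix.det_apply']
  simp_rw [h1]
  refine Finset.measurable_sum _ fun σ _ => ?_
  refine measurable_const.mul ?_
  refine Finset.measurable_prod _ fun i _ => ?_
  have h2 : ∀ x, LinearMap.toMatrix b.toBasis b.toBasis (Gm Dm S m x) (σ i) i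
      = ∑ t ∈ Finset.range m, ⟪fw Dm S t x (b i), fw Dm S t x (b (σ i))⟫ := by
    intro x
    rw [LinearMap.toMatrix_apply, OrthonormalBasis.coe_toBasis, OrthonormalBasis.coe_toBasis_repr_apply,
      OrthonormalBasis.repr_apply_apply, real_inner_comm, Gm_inner']
  simp_rw [h2]
  refine Finset.measurable_sum _ fun t _ => ?_
  exact (measurable_fw hD hS t _).inner (measurable_fw hD hS t _)

theorem measurable_Sm {Dm : Ω → E →L[ℝ] E} {S : Ω → Ω}
    (hD : ∀ v, Measurable fun x => Dm x v) (hS : Measurable S) (m : ℕ) :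
    Measurable (Sm Dm S m) := by
  unfold Sm
  exact measurable_const.mul (measurable_det_Gm hD hS m).log

end Vale.Agent.P109.C443
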