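import Vale.Agent.P109.C443.Persist
import Vale.Agent.P109.C443.Meas
import Vale.Agent.P109.R476.Accounting

/-!
P109, block S1+S2, final combined statement (helper443, helper476): cocycle accounting.

For a measurable `GL`-cocycle with two-sided bounds over an invertible measure preserving map,
at all but few dyadic levels most points have Green operators of subexponential size.
-/

set_option linter.unusedSectionVars false

namespace Vale.Agent.P109.C443

open scoped RealInnerProductSpace ENNReal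
open Module MeasureTheory

universe u

variable {E : Type*} [NormedAddCommGroup E] [InnerProductSpace ℝ E] [FiniteDimensional ℝ E]
  [MeasurableSpace E] [BorelSpace E]

theorem Sm_zero {Ω : Type*} (Dm : Ω → E →L[ℝ] E) (S : Ω → Ω) (x : Ω) : Sm Dm S 0 x = 0 := by
  unfold Sm Gm
  rw [Finset.range_zero, Finset.sum_empty]
  rw [LinearMap.det_zero]
  rcases eq_or_ne (finrank ℝ E) 0 with h | h
  · rw [h, pow_zero, Real.log_one, mul_zero]
  · rw [zero_pow h, Real.log_zero, mul_zero]

/-- the constant of the accounting theorem -/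
noncomputable def CA (D : ℕ) (Λ : ℝ) : ℝ :=
  5120000 * C0 D Λ * (1 + 3 * Real.log Λ) + 400 * C0 D Λ + 1

theorem C0_nonneg (D : ℕ) (Λ : ℝ) : 0 ≤ C0 D Λ := by
  unfold C0
  have : 0 ≤ Real.log (Λ ^ 2 + 1) := Real.log_nonneg (by nlinarith [sq_nonneg Λ])
  positivity

/-- **Accounting theorem.**  `C = CA (dim E) Λ` depends only on the dimension and on the bound
`Λ`; for all `ρ, ε ∈ (0,1]` and all levels `j` with `(C/(ε ρ))^2 ≤ 2^j` outside an exceptional set
of at most `C/(ε ρ^2)` levels there is a set `G` of points with Green operators of size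
`exp (ρ 2^{j+1} / 200)` along the orbit of length `2^{j+1}`, of small complement in every set with
disjoint translates. -/
theorem accounting {Ω : Type u} [MeasurableSpace Ω] (ν : Measure Ω) [IsProbabilityMeasure ν]
    (S : Ω ≃ᵐ Ω) (hS : MeasurePreserving S ν ν) (Dm : Ω → E →L[ℝ] E)
    (hD : ∀ v, Measurable fun x => Dm x v) {Λ : ℝ} (h : CocBd Dm Λ)
    (ρ ε : ℝ) (hρ : 0 < ρ) (hρ1 : ρ ≤ 1) (hε : 0 < ε) (hε1 : ε ≤ 1) :
    ∃ Bad : Finset ℕ, (Bad.card : ℝ) ≤ CA (finrank ℝ E) Λ / (ε * ρ ^ 2) ∧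
      ∀ j, (CA (finrank ℝ E) Λ / (ε * ρ)) ^ 2 ≤ 2 ^ j → j ∉ Bad →
        ∃ G : Set Ω, MeasurableSet G ∧
          (∀ x ∈ G, S3.Good (2 ^ (j + 1)) (fun t => Dm (S^[t] x))
            (Real.exp (ρ * 2 ^ (j + 1) / 200))) ∧
          ∀ Z : Set Ω, MeasurableSet Z →
            (∀ i < 2 ^ (j + 1), ∀ i' < 2 ^ (j + 1), i ≠ i' →
              Disjoint (S^[i] ⁻¹' Z) (S^[i'] ⁻¹' Z)) →
            (2 ^ (j + 1) : ℝ≥0∞) * ν (Z \ G) ≤ ENNReal.ofReal ε := by
  set D := finrank ℝ E with hDdef
  have hC0 : 0 ≤ C0 D Λ := C0_nonneg D Λ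
  have hlog : 0 ≤ Real.log Λ := Real.log_nonneg h.one_le
  have hCA : 5120000 * C0 D Λ * (1 + 3 * Real.log Λ) ≤ CA D Λ := by unfold CA; linarith
  have hCA2 : 400 * C0 D Λ + 1 ≤ CA D Λ := by
    unfold CA
    have : 0 ≤ 5120000 * C0 D Λ * (1 + 3 * Real.log Λ) := by positivity
    linarith
  have hCA1 : 1 ≤ CA D Λ := by linarith
  have hsymm : ∀ (m : ℕ) (x : Ω), S.symm^[m] (S^[m] x) = x := by
    intro m x
    have h0 : Function.LeftInverse S.symm S := S.symm_apply_apply
    exact h0.iterate m x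
  have hSe : ∀ m : ℕ, (⇑S.toEquiv)^[m] = (⇑S)^[m] := fun m => rfl
  have hSe' : ∀ m : ℕ, (⇑S.toEquiv.symm)^[m] = (⇑S.symm)^[m] := fun m => rfl
  obtain ⟨Bad, hBad, hlev⟩ := _root_.P109.R476.accounting_abstract ν S hS (C0 D Λ) Λ hC0 h.one_le
    (Sm Dm S) (fun m K x => 0 ≤ K ∧ GoodAt Dm S.toEquiv m K x)
    (fun m => measurable_Sm hD S.measurable m)
    (by
      intro m
      rcases Nat.eq_zero_or_pos m with rfl | hm
      · exact ⟨0, fun x => by rw [Sm_zero]; simp⟩
      · refine ⟨(1 / 2) * Real.log ((m * Λ ^ (2 * m)) ^ (finrank ℝ E)), fun x => ?_⟩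
        rw [abs_of_nonneg (Sm_nonneg Dm S h hm x)]
        exact Sm_le Dm S h hm x)
    (by
      intro m x
      rcases Nat.eq_zero_or_pos m with rfl | hm
      · rw [Sm_zero]
      · exact Sm_nonneg Dm S h hm x)
    (Sm_one Dm S)
    (by
      intro m hm x
      have := (overlap Dm S.toEquiv h hm (S^[m] x)).1
      rw [hSe', hsymm] at this
      exact this)
    (by
      intro m hm x a ha
      refine ⟨(Real.exp_pos _).le, ?_⟩
      have := (overlap Dm S.toEquiv h hm (S^[m] x)).2 a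
      rw [hSe', hsymm] at this
      exact this ha)
    (by
      intro m u K x hu hg
      have hΛ0 : 0 ≤ Λ := zero_le_one.trans h.one_le
      refine ⟨by have := hg.1; positivity, ?_⟩
      exact GoodAt.persist h hg.1 hu hg.2)
    (fun m K K' x hK hg => ⟨hg.1.trans hK, hg.2.mono hg.1 hK⟩)
    ρ ε hρ hρ1 hε
  refine ⟨Bad, hBad.trans ?_, ?_⟩
  · exact div_le_div_of_nonneg_right hCA (by positivity)
  · intro j hj hjB
    have hthr : 400 * C0 D Λ ≤ ρ * 2 ^ (j + 1) := by
      -- `(C/(ερ))² ≤ 2^j`, so `ρ 2^j ≥ C²/(ε²ρ) ≥ C² ≥ C`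
      have h1 : CA D Λ ^ 2 ≤ 2 ^ j * (ε * ρ) ^ 2 := by
        rw [div_pow, div_le_iff₀ (by positivity)] at hj
        exact hj
      have h2 : (ε * ρ) ^ 2 ≤ ρ := by
        have : (ε * ρ) ^ 2 = ε ^ 2 * ρ * ρ := by ring
        rw [this]
        have h3 : ε ^ 2 * ρ ≤ 1 := by
          have : ε ^ 2 ≤ 1 := pow_le_one₀ hε.le hε1
          nlinarith
        nlinarith
      have h4 : CA D Λ ^ 2 ≤ 2 ^ j * ρ :=
        h1.trans (mul_le_mul_of_nonneg_left h2 (by positivity))
      have h5 : CA D Λ ≤ CA D Λ ^ 2 := by nlinarith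
      have h6 : (2 : ℝ) ^ j * ρ ≤ ρ * 2 ^ (j + 1) := by
        rw [pow_succ]
        have : 0 ≤ (2 : ℝ) ^ j * ρ := by positivity
        nlinarith
      linarith
    obtain ⟨G, hG, hgood, hZ⟩ := hlev j hjB hthr
    refine ⟨G, hG, ?_, ?_⟩
    · intro x hx
      have := good_of_goodAt (Dm := Dm) (S := S.toEquiv) (n := 2 ^ (j + 1))
        (K := Real.exp (ρ * 2 ^ (j + 1) / 200)) (Real.exp_pos _).le (x := x)
        (fun τ _ hτ => (hgood x hx τ hτ).2)
      exact this
    · intro Z hZm hdis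
      have hpd : ((Finset.range (2 ^ (j + 1)) : Set ℕ).PairwiseDisjoint fun i => S^[i] '' Z) := by
        intro i hi i' hi' hne
        rw [Finset.coe_range, Set.mem_Iio] at hi hi'
        have h1 := hdis i hi i' hi' hne
        rw [Function.onFun, Set.disjoint_left]
        rintro y ⟨z, hz, rfl⟩ ⟨z', hz', hzz'⟩
        -- `S^i z = S^{i'} z'`; put `w = S^{-i'} z = S^{-i} z'`
        rw [Set.disjoint_left] at h1
        have hleft : ∀ m (x : Ω), S^[m] (S.symm^[m] x) = x := by
          intro m x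
          have h0 : Function.LeftInverse S S.symm := S.apply_symm_apply
          exact h0.iterate m x
        have e1 : S^[i'] (S.symm^[i'] z) = z := hleft i' z
        have e2 : S^[i] (S.symm^[i'] z) = z' := by
          have e3 : S^[i'] (S^[i] (S.symm^[i'] z)) = S^[i'] z' := by
            rw [← Function.iterate_add_apply, Nat.add_comm, Function.iterate_add_apply, e1, hzz']
          exact (S.injective.iterate i') e3
        refine h1 (a := S.symm^[i'] z) ?_ ?_
        · change S^[i] (S.symm^[i'] z) ∈ Z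
          rw [e2]; exact hz'
        · change S^[i'] (S.symm^[i'] z) ∈ Z
          rw [e1]; exact hz
      have := hZ Z hZm hpd
      have hfin : ν (Z \ G) ≠ ⊤ := measure_ne_top _ _
      rw [← ENNReal.ofReal_toReal hfin]
      have h2 : (2 ^ (j + 1) : ℝ≥0∞) = ENNReal.ofReal (2 ^ (j + 1)) := by
        rw [ENNReal.ofReal_pow (by norm_num)]; simp
      rw [h2, ← ENNReal.ofReal_mul (by positivity)]
      exact ENNReal.ofReal_le_ofReal this

end Vale.Agent.P109.C443
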