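import Mathlib.Analysis.InnerProductSpace.Spectrum
import Mathlib.Analysis.InnerProductSpace.Adjoint
import Mathlib.Analysis.InnerProductSpace.Positive

/-!
P109, block S1a (helper443): linear algebra behind the cocycle accounting.
-/

set_option linter.unusedSectionVars false

namespace Vale.Agent.P109.C443

open scoped RealInnerProductSpace
open Module

variable {E : Type*} [NormedAddCommGroup E] [InnerProductSpace ℝ E] [FiniteDimensional ℝ E]

/-- eigenvalue as a Rayleigh quotient -/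
theorem eig_eq {M : E →ₗ[ℝ] E} (hM : M.IsSymmetric) {n : ℕ} (hn : finrank ℝ E = n) (i : Fin n) :
    hM.eigenvalues hn i =
      ⟪M (hM.eigenvectorBasis hn i), hM.eigenvectorBasis hn i⟫ := by
  rw [hM.apply_eigenvectorBasis hn i]
  have h1 : ‖hM.eigenvectorBasis hn i‖ = 1 := (hM.eigenvectorBasis hn).orthonormal.1 i
  rw [real_inner_smul_left, real_inner_self_eq_norm_sq, h1]
  simp

theorem inner_eq_sum {M : E →ₗ[ℝ] E} (hM : M.IsSymmetric) {n : ℕ} (hn : finrank ℝ E = n) (v : E) :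
    ⟪M v, v⟫ = ∑ i, hM.eigenvalues hn i * ((hM.eigenvectorBasis hn).repr v i) ^ 2 := by
  have h := (hM.eigenvectorBasis hn).repr.inner_map_map (M v) v
  rw [← h]
  rw [PiLp.inner_apply]
  refine Finset.sum_congr rfl fun i _ => ?_
  rw [hM.eigenvectorBasis_apply_self_apply hn v i]
  simp only [RCLike.ofReal_real_eq_id, id_eq, RCLike.inner_apply, conj_trivial]
  ring

theorem norm_eq_sum {M : E →ₗ[ℝ] E} (hM : M.IsSymmetric) {n : ℕ} (hn : finrank ℝ E = n) (v : E) :
    ‖v‖ ^ 2 = ∑ i, ((hM.eigenvectorBasis hn).repr v i) ^ 2 := by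
  have h := (hM.eigenvectorBasis hn).repr.norm_map v
  rw [← h, EuclideanSpace.norm_sq_eq]
  refine Finset.sum_congr rfl fun i _ => ?_
  rw [Real.norm_eq_abs, sq_abs]

/-- bounds on the determinant from bounds on the quadratic form -/
theorem det_bounds {M : E →ₗ[ℝ] E} (hM : M.IsSymmetric) {a b : ℝ} (ha : 0 ≤ a)
    (hlow : ∀ v, a * ‖v‖ ^ 2 ≤ ⟪M v, v⟫) (hup : ∀ v, ⟪M v, v⟫ ≤ b * ‖v‖ ^ 2) :
    a ^ (finrank ℝ E) ≤ LinearMap.det M ∧ LinearMap.det M ≤ b ^ (finrank ℝ E) := by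
  have hn : finrank ℝ E = finrank ℝ E := rfl
  have hdet := hM.det_eq_prod_eigenvalues hn
  have hl : ∀ i, a ≤ hM.eigenvalues hn i := by
    intro i
    have h1 : ‖hM.eigenvectorBasis hn i‖ = 1 := (hM.eigenvectorBasis hn).orthonormal.1 i
    have := hlow (hM.eigenvectorBasis hn i)
    rw [← eig_eq hM hn i, h1] at this
    simpa using this
  have hu : ∀ i, hM.eigenvalues hn i ≤ b := by
    intro i
    have h1 : ‖hM.eigenvectorBasis hn i‖ = 1 := (hM.eigenvectorBasis hn).orthonormal.1 i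
    have := hup (hM.eigenvectorBasis hn i)
    rw [← eig_eq hM hn i, h1] at this
    simpa using this
  have hdet' : LinearMap.det M = ∏ i, hM.eigenvalues hn i := by simpa using hdet
  constructor
  · rw [hdet']
    calc a ^ (finrank ℝ E) = ∏ _i : Fin (finrank ℝ E), a := by simp
      _ ≤ _ := Finset.prod_le_prod (fun i _ => ha) (fun i _ => hl i)
  · rw [hdet']
    calc _ ≤ ∏ _i : Fin (finrank ℝ E), b :=
          Finset.prod_le_prod (fun i _ => ha.trans (hl i)) (fun i _ => hu i)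
      _ = _ := by simp

/-- if the form of a positive symmetric `M ≤ b` is small at one vector, then `det M` is small -/
theorem det_lt_of_small {M : E →ₗ[ℝ] E} (hM : M.IsSymmetric) {a b : ℝ} (hb : 1 ≤ b)
    (hlow : ∀ v, 0 ≤ ⟪M v, v⟫) (hup : ∀ v, ⟪M v, v⟫ ≤ b * ‖v‖ ^ 2) (_ha : 0 < a)
    {y : E} (hy : ⟪M y, y⟫ < a * ‖y‖ ^ 2) :
    LinearMap.det M < a * b ^ (finrank ℝ E) := by
  classical
  have hn : finrank ℝ E = finrank ℝ E := rfl
  have hdet := hM.det_eq_prod_eigenvalues hn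
  have hl : ∀ i, 0 ≤ hM.eigenvalues hn i := by
    intro i
    have := hlow (hM.eigenvectorBasis hn i)
    rwa [← eig_eq hM hn i] at this
  have hu : ∀ i, hM.eigenvalues hn i ≤ b := by
    intro i
    have h1 : ‖hM.eigenvectorBasis hn i‖ = 1 := (hM.eigenvectorBasis hn).orthonormal.1 i
    have := hup (hM.eigenvectorBasis hn i)
    rw [← eig_eq hM hn i, h1] at this
    simpa using this
  have hdet' : LinearMap.det M = ∏ i, hM.eigenvalues hn i := by simpa using hdet
  obtain ⟨i0, hi0⟩ : ∃ i0, hM.eigenvalues hn i0 < a := by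
    by_contra hcon
    push Not at hcon
    apply absurd hy
    rw [not_lt, inner_eq_sum hM hn y, norm_eq_sum hM hn y, Finset.mul_sum]
    exact Finset.sum_le_sum fun i _ => mul_le_mul_of_nonneg_right (hcon i) (sq_nonneg _)
  rw [hdet', ← Finset.mul_prod_erase Finset.univ _ (Finset.mem_univ i0)]
  have h2 : ∏ i ∈ Finset.univ.erase i0, hM.eigenvalues hn i ≤ b ^ (finrank ℝ E) := by
    calc ∏ i ∈ Finset.univ.erase i0, hM.eigenvalues hn i
        ≤ ∏ _i ∈ Finset.univ.erase i0, b :=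
          Finset.prod_le_prod (fun i _ => hl i) (fun i _ => hu i)
      _ = b ^ (Finset.univ.erase i0).card := by simp
      _ ≤ b ^ (finrank ℝ E) := by
          apply pow_le_pow_right₀ hb
          calc (Finset.univ.erase i0).card ≤ (Finset.univ : Finset (Fin (finrank ℝ E))).card :=
                Finset.card_le_card (Finset.erase_subset _ _)
            _ = _ := by simp
  have hbpos : 0 < b ^ (finrank ℝ E) := by positivity
  calc hM.eigenvalues hn i0 * ∏ i ∈ Finset.univ.erase i0, hM.eigenvalues hn i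
      ≤ hM.eigenvalues hn i0 * b ^ (finrank ℝ E) := mul_le_mul_of_nonneg_left h2 (hl i0)
    _ < a * b ^ (finrank ℝ E) := mul_lt_mul_of_pos_right hi0 hbpos

/-- coercive endomorphisms are invertible -/
theorem exists_inv {P : E →ₗ[ℝ] E} {c : ℝ} (hc : 0 < c) (hP : ∀ v, c * ‖v‖ ^ 2 ≤ ⟪P v, v⟫) :
    ∃ R : E →ₗ[ℝ] E, (∀ v, P (R v) = v) ∧ (∀ v, R (P v) = v) ∧
      (∀ v, ⟪R v, v⟫ ≤ c⁻¹ * ‖v‖ ^ 2) ∧ (∀ v, 0 ≤ ⟪R v, v⟫) := by
  have hinj : Function.Injective P := by
    rw [injective_iff_map_eq_zero]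
    intro v hv
    have := hP v
    rw [hv, inner_zero_left] at this
    have h1 : ‖v‖ ^ 2 ≤ 0 := by
      by_contra hcon
      push Not at hcon
      have := mul_pos hc hcon
      linarith
    have h2 : ‖v‖ = 0 := by
      have := sq_nonneg ‖v‖
      exact pow_eq_zero_iff (two_ne_zero) |>.1 (le_antisymm h1 this)
    exact norm_eq_zero.1 h2
  let e := LinearEquiv.ofInjectiveEndo P hinj
  have he : ∀ v, e v = P v := fun v => by simp [e]
  have h1 : ∀ v, P (e.symm v) = v := fun v => by rw [← he, e.apply_symm_apply]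
  refine ⟨e.symm, h1, fun v => by rw [← he]; exact e.symm_apply_apply v, ?_, ?_⟩
  · intro v
    have h2 := hP (e.symm v)
    rw [h1] at h2
    have h3 : ⟪(e.symm : E →ₗ[ℝ] E) v, v⟫ = ⟪v, e.symm v⟫ := by
      rw [real_inner_comm]; rfl
    rw [h3]
    have h4 : ⟪v, e.symm v⟫ ≤ ‖v‖ * ‖e.symm v‖ := real_inner_le_norm _ _
    by_cases hz : ‖e.symm v‖ = 0
    · rw [hz, mul_zero] at h4
      have : 0 ≤ c⁻¹ * ‖v‖ ^ 2 := by positivity
      linarith
    · have hz' : 0 < ‖e.symm v‖ := lt_of_le_of_ne (norm_nonneg _) (Ne.symm hz)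
      have h5 : c * ‖e.symm v‖ ≤ ‖v‖ := by
        have : c * ‖e.symm v‖ * ‖e.symm v‖ ≤ ‖v‖ * ‖e.symm v‖ := by nlinarith
        exact le_of_mul_le_mul_right this hz'
      have h6 : ‖e.symm v‖ ≤ c⁻¹ * ‖v‖ := by
        rw [inv_mul_eq_div, le_div_iff₀ hc]; linarith
      calc ⟪v, e.symm v⟫ ≤ ‖v‖ * ‖e.symm v‖ := h4
        _ ≤ ‖v‖ * (c⁻¹ * ‖v‖) := mul_le_mul_of_nonneg_left h6 (norm_nonneg _)
        _ = _ := by ring
  · intro v
    have h2 := hP (e.symm v)
    rw [h1] at h2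
    have h3 : ⟪(e.symm : E →ₗ[ℝ] E) v, v⟫ = ⟪v, e.symm v⟫ := by
      rw [real_inner_comm]; rfl
    rw [h3]
    have : 0 ≤ c * ‖e.symm v‖ ^ 2 := by positivity
    linarith

/-- The splitting lemma: `P1 ≥ c1`, `P2 ≥ c2`, and `det (P1+P2)` not too small compared with
`det P1 * det P2` imply that every vector splits with small cost. -/
theorem exists_split {P1 P2 : E →ₗ[ℝ] E} (h1s : P1.IsSymmetric) (h2s : P2.IsSymmetric)
    {c1 c2 : ℝ} (hc1 : 0 < c1) (hc2 : 0 < c2)
    (h1 : ∀ v, c1 * ‖v‖ ^ 2 ≤ ⟪P1 v, v⟫) (h2 : ∀ v, c2 * ‖v‖ ^ 2 ≤ ⟪P2 v, v⟫)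
    {b : ℝ} (hb : 1 ≤ b) (hbc : c1⁻¹ + c2⁻¹ ≤ b) :
    (LinearMap.det (P1 + P2) ≤ b ^ (finrank ℝ E) * (LinearMap.det P1 * LinearMap.det P2)) ∧
    ∀ k : ℝ, 0 < k →
      k⁻¹ * b ^ (finrank ℝ E) * (LinearMap.det P1 * LinearMap.det P2) ≤ LinearMap.det (P1 + P2) →
      ∃ π1 π2 : E →ₗ[ℝ] E, (∀ v, π1 v + π2 v = v) ∧
        ∀ v, ⟪P1 (π1 v), π1 v⟫ + ⟪P2 (π2 v), π2 v⟫ ≤ k * ‖v‖ ^ 2 := by
  obtain ⟨R1, hR1, hR1', hR1u, hR1p⟩ := exists_inv hc1 h1
  obtain ⟨R2, hR2, hR2', hR2u, hR2p⟩ := exists_inv hc2 h2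
  have hR1s : R1.IsSymmetric := by
    intro v w
    have := h1s (R1 v) (R1 w)
    rw [hR1, hR1] at this
    exact this.symm
  have hR2s : R2.IsSymmetric := by
    intro v w
    have := h2s (R2 v) (R2 w)
    rw [hR2, hR2] at this
    exact this.symm
  have hMs : (R1 + R2).IsSymmetric := hR1s.add hR2s
  have hMlow : ∀ v, 0 ≤ ⟪(R1 + R2) v, v⟫ := by
    intro v
    rw [LinearMap.add_apply, inner_add_left]
    exact add_nonneg (hR1p v) (hR2p v)
  have hMup : ∀ v, ⟪(R1 + R2) v, v⟫ ≤ b * ‖v‖ ^ 2 := by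
    intro v
    rw [LinearMap.add_apply, inner_add_left]
    calc _ ≤ c1⁻¹ * ‖v‖ ^ 2 + c2⁻¹ * ‖v‖ ^ 2 := add_le_add (hR1u v) (hR2u v)
      _ = (c1⁻¹ + c2⁻¹) * ‖v‖ ^ 2 := by ring
      _ ≤ _ := mul_le_mul_of_nonneg_right hbc (sq_nonneg _)
  have hcomp : P1 ∘ₗ (R1 + R2) ∘ₗ P2 = P1 + P2 := by
    ext v
    simp only [LinearMap.comp_apply, LinearMap.add_apply, map_add, hR1, hR2']
    rw [add_comm]
  have hdet : LinearMap.det (P1 + P2)
      = LinearMap.det (R1 + R2) * (LinearMap.det P1 * LinearMap.det P2) := by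
    rw [← hcomp, LinearMap.det_comp, LinearMap.det_comp]; ring
  have hd1 : 0 < LinearMap.det P1 := by
    have hd : LinearMap.det P1 * LinearMap.det R1 = 1 := by
      rw [← LinearMap.det_comp]
      have : P1 ∘ₗ R1 = LinearMap.id := by ext v; simp [hR1]
      rw [this, LinearMap.det_id]
    have hne : LinearMap.det P1 ≠ 0 := left_ne_zero_of_mul_eq_one hd
    have hb1 : c1 ^ (finrank ℝ E) ≤ LinearMap.det P1 := by
      have hn : finrank ℝ E = finrank ℝ E := rfl
      have hl : ∀ i, c1 ≤ h1s.eigenvalues hn i := by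
        intro i
        have h1' : ‖h1s.eigenvectorBasis hn i‖ = 1 := (h1s.eigenvectorBasis hn).orthonormal.1 i
        have := h1 (h1s.eigenvectorBasis hn i)
        rw [← eig_eq h1s hn i, h1'] at this
        simpa using this
      have hdet := h1s.det_eq_prod_eigenvalues hn
      have hdet' : LinearMap.det P1 = ∏ i, h1s.eigenvalues hn i := by simpa using hdet
      rw [hdet']
      calc c1 ^ (finrank ℝ E) = ∏ _i : Fin (finrank ℝ E), c1 := by simp
        _ ≤ _ := Finset.prod_le_prod (fun i _ => hc1.le) (fun i _ => hl i)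
    have : 0 < c1 ^ (finrank ℝ E) := by positivity
    linarith
  have hd2 : 0 < LinearMap.det P2 := by
    have hb1 : c2 ^ (finrank ℝ E) ≤ LinearMap.det P2 := by
      have hn : finrank ℝ E = finrank ℝ E := rfl
      have hl : ∀ i, c2 ≤ h2s.eigenvalues hn i := by
        intro i
        have h1' : ‖h2s.eigenvectorBasis hn i‖ = 1 := (h2s.eigenvectorBasis hn).orthonormal.1 i
        have := h2 (h2s.eigenvectorBasis hn i)
        rw [← eig_eq h2s hn i, h1'] at this
        simpa using this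
      have hdet := h2s.det_eq_prod_eigenvalues hn
      have hdet' : LinearMap.det P2 = ∏ i, h2s.eigenvalues hn i := by simpa using hdet
      rw [hdet']
      calc c2 ^ (finrank ℝ E) = ∏ _i : Fin (finrank ℝ E), c2 := by simp
        _ ≤ _ := Finset.prod_le_prod (fun i _ => hc2.le) (fun i _ => hl i)
    have : 0 < c2 ^ (finrank ℝ E) := by positivity
    linarith
  have hdd : 0 < LinearMap.det P1 * LinearMap.det P2 := mul_pos hd1 hd2
  refine ⟨?_, ?_⟩
  · rw [hdet]
    apply mul_le_mul_of_nonneg_right _ hdd.le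
    exact (det_bounds hMs le_rfl (by intro v; simpa using hMlow v) hMup).2
  · intro k hk hkdet
    rw [hdet] at hkdet
    have hdetM : k⁻¹ * b ^ (finrank ℝ E) ≤ LinearMap.det (R1 + R2) :=
      le_of_mul_le_mul_right hkdet hdd
    have hMlow' : ∀ v, k⁻¹ * ‖v‖ ^ 2 ≤ ⟪(R1 + R2) v, v⟫ := by
      intro v
      by_contra hcon
      push Not at hcon
      have := det_lt_of_small hMs hb hMlow hMup (inv_pos.2 hk) hcon
      linarith
    obtain ⟨N, hN, hN', hNu, hNp⟩ := exists_inv (inv_pos.2 hk) hMlow'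
    refine ⟨R1 ∘ₗ N, R2 ∘ₗ N, ?_, ?_⟩
    · intro v
      have := hN v
      simpa only [LinearMap.add_apply, LinearMap.comp_apply] using this
    · intro v
      simp only [LinearMap.comp_apply, hR1, hR2]
      have h3 : ⟪N v, R1 (N v)⟫ + ⟪N v, R2 (N v)⟫ = ⟪N v, v⟫ := by
        rw [← inner_add_right]
        have := hN v
        rw [LinearMap.add_apply] at this
        rw [this]
      rw [h3]
      have := hNu v
      rwa [inv_inv] at this

end Vale.Agent.P109.C443
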