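import Vale.Agent.P109.C443.Lin
import Mathlib.Analysis.InnerProductSpace.PiL2
import Mathlib.Analysis.SpecialFunctions.Log.Basic
import Mathlib.Analysis.SpecialFunctions.Exp

/-!
P109, block S1a (helper443): the cocycle over an invertible map, Gram operators, the overlap
function, good splittings, persistence.
-/

set_option linter.unusedSectionVars false

namespace Vale.Agent.P109.C443

open scoped RealInnerProductSpace
open Module

variable {E : Type*} [NormedAddCommGroup E] [InnerProductSpace ℝ E] [FiniteDimensional ℝ E]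
variable {Ω : Type*}

/-- forward cocycle: `fw Dm S k x = Dm (S^{k-1} x) ∘ ... ∘ Dm x` -/
noncomputable def fw (Dm : Ω → E →L[ℝ] E) (S : Ω → Ω) : ℕ → Ω → (E →L[ℝ] E)
  | 0, _ => ContinuousLinearMap.id ℝ E
  | k + 1, x => (Dm (S^[k] x)).comp (fw Dm S k x)

/-- uniform two-sided bounds for the cocycle -/
structure CocBd (Dm : Ω → E →L[ℝ] E) (Λ : ℝ) : Prop where
  one_le : 1 ≤ Λ
  up : ∀ x v, ‖Dm x v‖ ≤ Λ * ‖v‖
  low : ∀ x v, ‖v‖ ≤ Λ * ‖Dm x v‖

section basic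

variable (Dm : Ω → E →L[ℝ] E) (S : Ω → Ω)

@[simp] theorem fw_zero (x : Ω) : fw Dm S 0 x = ContinuousLinearMap.id ℝ E := rfl

theorem fw_succ (k : ℕ) (x : Ω) : fw Dm S (k + 1) x = (Dm (S^[k] x)).comp (fw Dm S k x) := rfl

theorem fw_succ_apply (k : ℕ) (x : Ω) (v : E) :
    fw Dm S (k + 1) x v = Dm (S^[k] x) (fw Dm S k x v) := rfl

theorem fw_add (a b : ℕ) (x : Ω) (v : E) :
    fw Dm S (a + b) x v = fw Dm S b (S^[a] x) (fw Dm S a x v) := by
  induction b with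
  | zero => simp
  | succ b ih =>
    rw [← Nat.add_assoc, fw_succ_apply, fw_succ_apply, ih, ← Function.iterate_add_apply, Nat.add_comm b a]

variable {Dm S} {Λ : ℝ} (h : CocBd Dm Λ)
include h

theorem fw_up (k : ℕ) (x : Ω) (v : E) : ‖fw Dm S k x v‖ ≤ Λ ^ k * ‖v‖ := by
  have h0 : 0 ≤ Λ := zero_le_one.trans h.one_le
  induction k with
  | zero => simp
  | succ k ih =>
    rw [fw_succ_apply]
    calc _ ≤ Λ * ‖fw Dm S k x v‖ := h.up _ _
      _ ≤ Λ * (Λ ^ k * ‖v‖) := mul_le_mul_of_nonneg_left ih h0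
      _ = _ := by ring

theorem fw_low (k : ℕ) (x : Ω) (v : E) : ‖v‖ ≤ Λ ^ k * ‖fw Dm S k x v‖ := by
  have h0 : 0 ≤ Λ := zero_le_one.trans h.one_le
  induction k with
  | zero => simp
  | succ k ih =>
    rw [fw_succ_apply]
    calc _ ≤ Λ ^ k * ‖fw Dm S k x v‖ := ih
      _ ≤ Λ ^ k * (Λ * ‖Dm (S^[k] x) (fw Dm S k x v)‖) :=
          mul_le_mul_of_nonneg_left (h.low _ _) (pow_nonneg h0 _)
      _ = _ := by ring

theorem fw_inj (k : ℕ) (x : Ω) : Function.Injective (fw Dm S k x) := by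
  rw [injective_iff_map_eq_zero]
  intro v hv
  have := fw_low (S := S) h k x v
  rw [hv, norm_zero, mul_zero] at this
  exact norm_le_zero_iff.1 this

end basic

theorem det_adjoint' (F : E →ₗ[ℝ] E) : LinearMap.det (LinearMap.adjoint F) = LinearMap.det F := by
  have b := stdOrthonormalBasis ℝ E
  rw [← LinearMap.det_toMatrix b.toBasis, LinearMap.toMatrix_adjoint, Matrix.det_conjTranspose,
    LinearMap.det_toMatrix]
  simp

/-- Gram operator of the window `[0,m)` -/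
noncomputable def Gm (Dm : Ω → E →L[ℝ] E) (S : Ω → Ω) (m : ℕ) (x : Ω) : E →ₗ[ℝ] E :=
  ∑ t ∈ Finset.range m,
    (((fw Dm S t x).adjoint.comp (fw Dm S t x) : E →L[ℝ] E) : E →ₗ[ℝ] E)

section gram

variable (Dm : Ω → E →L[ℝ] E) (S : Ω → Ω)

theorem Gm_inner' (m : ℕ) (x : Ω) (v w : E) :
    ⟪Gm Dm S m x v, w⟫ = ∑ t ∈ Finset.range m, ⟪fw Dm S t x v, fw Dm S t x w⟫ := by
  unfold Gm
  rw [LinearMap.sum_apply, sum_inner]
  refine Finset.sum_congr rfl fun t _ => ?_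
  rw [ContinuousLinearMap.coe_coe, ContinuousLinearMap.comp_apply,
    ContinuousLinearMap.adjoint_inner_left]

theorem Gm_inner (m : ℕ) (x : Ω) (v : E) :
    ⟪Gm Dm S m x v, v⟫ = ∑ t ∈ Finset.range m, ‖fw Dm S t x v‖ ^ 2 := by
  rw [Gm_inner']
  exact Finset.sum_congr rfl fun t _ => real_inner_self_eq_norm_sq _

theorem Gm_symm (m : ℕ) (x : Ω) : (Gm Dm S m x).IsSymmetric := by
  intro v w
  rw [Gm_inner', real_inner_comm, Gm_inner']
  exact Finset.sum_congr rfl fun t _ => real_inner_comm _ _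

theorem Gm_one (x : Ω) : Gm Dm S 1 x = LinearMap.id := by
  ext v
  refine ext_inner_right ℝ fun w => ?_
  rw [Gm_inner']
  simp

theorem Gm_low {m : ℕ} (hm : 1 ≤ m) (x : Ω) (v : E) : 1 * ‖v‖ ^ 2 ≤ ⟪Gm Dm S m x v, v⟫ := by
  rw [Gm_inner]
  have := Finset.single_le_sum (f := fun t => ‖fw Dm S t x v‖ ^ 2) (s := Finset.range m)
    (fun t _ => sq_nonneg _) (Finset.mem_range.2 (Nat.lt_of_lt_of_le Nat.zero_lt_one hm))
  simpa using this

theorem Gm_up {Λ : ℝ} (h : CocBd Dm Λ) (m : ℕ) (x : Ω) (v : E) :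
    ⟪Gm Dm S m x v, v⟫ ≤ (m * Λ ^ (2 * m)) * ‖v‖ ^ 2 := by
  rw [Gm_inner]
  calc ∑ t ∈ Finset.range m, ‖fw Dm S t x v‖ ^ 2
      ≤ ∑ _t ∈ Finset.range m, Λ ^ (2 * m) * ‖v‖ ^ 2 := by
        refine Finset.sum_le_sum fun t ht => ?_
        have h1 := fw_up (S := S) h t x v
        have h2 : ‖fw Dm S t x v‖ ^ 2 ≤ (Λ ^ t * ‖v‖) ^ 2 :=
          pow_le_pow_left₀ (norm_nonneg _) h1 2
        have h3 : (Λ ^ t * ‖v‖) ^ 2 = Λ ^ (2 * t) * ‖v‖ ^ 2 := by ring
        have h4 : Λ ^ (2 * t) ≤ Λ ^ (2 * m) :=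
          pow_le_pow_right₀ h.one_le (by have := Finset.mem_range.1 ht; omega)
        calc _ ≤ _ := h2
          _ = _ := h3
          _ ≤ _ := mul_le_mul_of_nonneg_right h4 (sq_nonneg _)
    _ = _ := by rw [Finset.sum_const, Finset.card_range, nsmul_eq_mul]; ring

/-- the Gram operator of a long window, split at time `m` -/
theorem Gm_add_inner (m k : ℕ) (x : Ω) (v w : E) :
    ⟪Gm Dm S (m + k) x v, w⟫ = ⟪Gm Dm S m x v, w⟫ +
      ⟪Gm Dm S k (S^[m] x) (fw Dm S m x v), fw Dm S m x w⟫ := by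
  rw [Gm_inner', Gm_inner', Gm_inner', Finset.sum_range_add]
  congr 1
  refine Finset.sum_congr rfl fun t _ => ?_
  rw [fw_add, fw_add]

end gram

/-- half log-determinant of the Gram operator -/
noncomputable def Sm (Dm : Ω → E →L[ℝ] E) (S : Ω → Ω) (m : ℕ) (x : Ω) : ℝ :=
  (1 / 2) * Real.log (LinearMap.det (Gm Dm S m x))

/-- the constant `C0` -/
noncomputable def C0 (D : ℕ) (Λ : ℝ) : ℝ := (D / 2 : ℝ) * Real.log (Λ ^ 2 + 1)

/-- `GoodAt m K y`: every vector at `y` splits into a past part and a future part, both of which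
stay of size `≤ K` (in `l²` sense) in the windows `[-m,0)` and `[0,m)`. -/
def GoodAt (Dm : Ω → E →L[ℝ] E) (S : Ω ≃ Ω) (m : ℕ) (K : ℝ) (y : Ω) : Prop :=
  ∃ φ π : E →L[ℝ] E, (∀ v, fw Dm S m (S.symm^[m] y) (φ v) + π v = v) ∧
    ∀ v, ∑ t ∈ Finset.range m, ‖fw Dm S t (S.symm^[m] y) (φ v)‖ ^ 2
      + ∑ t ∈ Finset.range m, ‖fw Dm S t y (π v)‖ ^ 2 ≤ K ^ 2 * ‖v‖ ^ 2

theorem GoodAt.mono {Dm : Ω → E →L[ℝ] E} {S : Ω ≃ Ω} {m : ℕ} {K K' : ℝ} {y : Ω}
    (h : GoodAt Dm S m K y) (hK0 : 0 ≤ K) (hK : K ≤ K') : GoodAt Dm S m K' y := by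
  obtain ⟨φ, π, h1, h2⟩ := h
  refine ⟨φ, π, h1, fun v => (h2 v).trans ?_⟩
  exact mul_le_mul_of_nonneg_right (pow_le_pow_left₀ hK0 hK 2) (sq_nonneg _)

theorem Sm_nonneg (Dm : Ω → E →L[ℝ] E) (S : Ω → Ω) {Λ : ℝ} (h : CocBd Dm Λ) {m : ℕ} (hm : 1 ≤ m)
    (x : Ω) : 0 ≤ Sm Dm S m x := by
  have := (det_bounds (Gm_symm Dm S m x) zero_le_one (Gm_low Dm S hm x)
    (Gm_up Dm S h m x)).1
  rw [one_pow] at this
  unfold Sm
  have := Real.log_nonneg this
  positivity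

theorem Sm_one (Dm : Ω → E →L[ℝ] E) (S : Ω → Ω) (x : Ω) : Sm Dm S 1 x = 0 := by
  unfold Sm
  rw [Gm_one, LinearMap.det_id, Real.log_one, mul_zero]

theorem Sm_le (Dm : Ω → E →L[ℝ] E) (S : Ω → Ω) {Λ : ℝ} (h : CocBd Dm Λ) {m : ℕ} (hm : 1 ≤ m)
    (x : Ω) : Sm Dm S m x ≤ (1 / 2) * Real.log ((m * Λ ^ (2 * m)) ^ (finrank ℝ E)) := by
  have hb := det_bounds (Gm_symm Dm S m x) zero_le_one (Gm_low Dm S hm x)
    (Gm_up Dm S h m x)
  rw [one_pow] at hb
  unfold Sm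
  have := Real.log_le_log (zero_lt_one.trans_le hb.1) hb.2
  linarith

/-- main algebraic lemma: lower bound for the overlap and the splitting at small overlap -/
theorem overlap (Dm : Ω → E →L[ℝ] E) (S : Ω ≃ Ω) {Λ : ℝ} (h : CocBd Dm Λ) {m : ℕ} (hm : 1 ≤ m)
    (y : Ω) :
    (- C0 (finrank ℝ E) Λ ≤ Sm Dm S m (S.symm^[m] y) + Sm Dm S m y
      - Sm Dm S (2 * m) (S.symm^[m] y)) ∧
    ∀ a : ℝ, Sm Dm S m (S.symm^[m] y) + Sm Dm S m y - Sm Dm S (2 * m) (S.symm^[m] y) ≤ a →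
      GoodAt Dm S m (Real.exp (a + C0 (finrank ℝ E) Λ)) y := by
  have hΛ0 : 0 < Λ := zero_lt_one.trans_le h.one_le
  set x := S.symm^[m] y with hx
  have hxy : S^[m] x = y := by
    rw [hx]
    have h0 : Function.LeftInverse S S.symm := S.apply_symm_apply
    exact h0.iterate m y
  -- the endomorphism at time `m`
  have hFinj : Function.Injective ((fw Dm S m x : E →L[ℝ] E) : E →ₗ[ℝ] E) := fw_inj h m x
  let F := LinearEquiv.ofInjectiveEndo ((fw Dm S m x : E →L[ℝ] E) : E →ₗ[ℝ] E) hFinj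
  have hF : ∀ v, F v = fw Dm S m x v := fun v => by simp [F]
  let Fi : E →ₗ[ℝ] E := F.symm
  have hFFi : ∀ v, fw Dm S m x (Fi v) = v := fun v => by
    rw [← hF]; exact F.apply_symm_apply v
  -- `P1 = Fi† Gm Fi`
  let P1 : E →ₗ[ℝ] E := (LinearMap.adjoint Fi) ∘ₗ (Gm Dm S m x) ∘ₗ Fi
  let P2 : E →ₗ[ℝ] E := Gm Dm S m y
  have hP1 : ∀ v w, ⟪P1 v, w⟫ = ⟪Gm Dm S m x (Fi v), Fi w⟫ := by
    intro v w
    simp only [P1, LinearMap.comp_apply]
    rw [LinearMap.adjoint_inner_left]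
  have h1s : P1.IsSymmetric := by
    intro v w
    rw [hP1, Gm_symm Dm S m x, real_inner_comm, ← hP1, real_inner_comm]
  have h2s : P2.IsSymmetric := Gm_symm Dm S m y
  have h1 : ∀ v, (Λ ^ 2)⁻¹ * ‖v‖ ^ 2 ≤ ⟪P1 v, v⟫ := by
    intro v
    rw [hP1, Gm_inner]
    obtain ⟨k, rfl⟩ : ∃ k, m = k + 1 := ⟨m - 1, by omega⟩
    have h3 := Finset.single_le_sum (f := fun t => ‖fw Dm S t x (Fi v)‖ ^ 2)
      (s := Finset.range (k + 1)) (fun t _ => sq_nonneg _) (Finset.mem_range.2 (Nat.lt_succ_self k))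
    refine le_trans ?_ h3
    have h4 : ‖v‖ ≤ Λ * ‖fw Dm S k x (Fi v)‖ := by
      have h5 := hFFi v
      rw [fw_succ_apply] at h5
      calc ‖v‖ = ‖Dm (S^[k] x) (fw Dm S k x (Fi v))‖ := by rw [h5]
        _ ≤ _ := h.up _ _
    have h6 : ‖v‖ ^ 2 ≤ (Λ * ‖fw Dm S k x (Fi v)‖) ^ 2 :=
      pow_le_pow_left₀ (norm_nonneg _) h4 2
    rw [mul_pow] at h6
    rw [inv_mul_le_iff₀ (by positivity)]
    exact h6
  have h2 : ∀ v, 1 * ‖v‖ ^ 2 ≤ ⟪P2 v, v⟫ := Gm_low Dm S hm y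
  -- determinants
  have hdF : LinearMap.det ((fw Dm S m x : E →L[ℝ] E) : E →ₗ[ℝ] E) ≠ 0 := by
    have : LinearMap.det ((fw Dm S m x : E →L[ℝ] E) : E →ₗ[ℝ] E) * LinearMap.det Fi = 1 := by
      rw [← LinearMap.det_comp]
      have : ((fw Dm S m x : E →L[ℝ] E) : E →ₗ[ℝ] E) ∘ₗ Fi = LinearMap.id := by
        ext v; simp [hFFi]
      rw [this, LinearMap.det_id]
    exact left_ne_zero_of_mul_eq_one this
  set d : ℝ := LinearMap.det ((fw Dm S m x : E →L[ℝ] E) : E →ₗ[ℝ] E) with hd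
  have hG1 : LinearMap.det (Gm Dm S m x) = d ^ 2 * LinearMap.det P1 := by
    have hc : Gm Dm S m x = (LinearMap.adjoint ((fw Dm S m x : E →L[ℝ] E) : E →ₗ[ℝ] E)) ∘ₗ P1 ∘ₗ
        ((fw Dm S m x : E →L[ℝ] E) : E →ₗ[ℝ] E) := by
      ext v
      refine ext_inner_right ℝ fun w => ?_
      simp only [LinearMap.comp_apply]
      rw [LinearMap.adjoint_inner_left, hP1]
      have e1 : ∀ u, Fi (((fw Dm S m x : E →L[ℝ] E) : E →ₗ[ℝ] E) u) = u := fun u => by
        rw [ContinuousLinearMap.coe_coe, ← hF]; exact F.symm_apply_apply u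
      rw [e1, e1]
    have := congrArg LinearMap.det hc
    rw [LinearMap.det_comp, LinearMap.det_comp, det_adjoint'] at this
    rw [this, ← hd]
    ring
  have hG2 : LinearMap.det (Gm Dm S (2 * m) x) = d ^ 2 * LinearMap.det (P1 + P2) := by
    have hc : Gm Dm S (2 * m) x = (LinearMap.adjoint ((fw Dm S m x : E →L[ℝ] E) : E →ₗ[ℝ] E)) ∘ₗ
        (P1 + P2) ∘ₗ ((fw Dm S m x : E →L[ℝ] E) : E →ₗ[ℝ] E) := by
      ext v
      refine ext_inner_right ℝ fun w => ?_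
      simp only [LinearMap.comp_apply]
      rw [LinearMap.adjoint_inner_left, LinearMap.add_apply, inner_add_left, hP1]
      have e1 : ∀ u, Fi (((fw Dm S m x : E →L[ℝ] E) : E →ₗ[ℝ] E) u) = u := fun u => by
        rw [ContinuousLinearMap.coe_coe, ← hF]; exact F.symm_apply_apply u
      rw [e1, e1, two_mul, Gm_add_inner, hxy]
      rfl
    have := congrArg LinearMap.det hc
    rw [LinearMap.det_comp, LinearMap.det_comp, det_adjoint'] at this
    rw [this, ← hd]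
    ring
  have hpG1 : 0 < LinearMap.det (Gm Dm S m x) := by
    have := (det_bounds (Gm_symm Dm S m x) zero_le_one (Gm_low Dm S hm x)
      (Gm_up Dm S h m x)).1
    rw [one_pow] at this; linarith
  have hpG2 : 0 < LinearMap.det (Gm Dm S (2 * m) x) := by
    have := (det_bounds (Gm_symm Dm S (2 * m) x) zero_le_one
      (Gm_low Dm S (by omega : 1 ≤ 2 * m) x) (Gm_up Dm S h (2 * m) x)).1
    rw [one_pow] at this; linarith
  have hpP2 : 0 < LinearMap.det P2 := by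
    have := (det_bounds (Gm_symm Dm S m y) zero_le_one (Gm_low Dm S hm y)
      (Gm_up Dm S h m y)).1
    rw [one_pow] at this
    change 0 < LinearMap.det (Gm Dm S m y)
    linarith
  have hd2 : 0 < d ^ 2 := by positivity
  have hpP1 : 0 < LinearMap.det P1 := by
    rw [hG1] at hpG1
    exact (mul_pos_iff_of_pos_left hd2).1 hpG1
  have hpP12 : 0 < LinearMap.det (P1 + P2) := by
    rw [hG2] at hpG2
    exact (mul_pos_iff_of_pos_left hd2).1 hpG2
  -- the overlap in terms of `P1, P2`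
  have hOv : Sm Dm S m x + Sm Dm S m y - Sm Dm S (2 * m) x
      = (1 / 2) * (Real.log (LinearMap.det P1) + Real.log (LinearMap.det P2)
          - Real.log (LinearMap.det (P1 + P2))) := by
    unfold Sm
    rw [hG1, hG2, Real.log_mul hd2.ne' hpP1.ne', Real.log_mul hd2.ne' hpP12.ne']
    change (1 / 2) * _ + (1 / 2) * Real.log (LinearMap.det P2) - _ = _
    ring
  have hb : (1 : ℝ) ≤ Λ ^ 2 + 1 := by nlinarith
  have hbc : ((Λ ^ 2)⁻¹)⁻¹ + (1 : ℝ)⁻¹ ≤ Λ ^ 2 + 1 := by simp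
  obtain ⟨hS1, hS2⟩ := exists_split h1s h2s (by positivity : 0 < (Λ ^ 2)⁻¹) zero_lt_one h1 h2 hb hbc
  have hlogb : Real.log ((Λ ^ 2 + 1) ^ (finrank ℝ E)) = 2 * C0 (finrank ℝ E) Λ := by
    rw [Real.log_pow]; unfold C0; ring
  have hbpos : 0 < (Λ ^ 2 + 1) ^ (finrank ℝ E) := by positivity
  refine ⟨?_, ?_⟩
  · rw [hOv]
    have := Real.log_le_log hpP12 hS1
    rw [Real.log_mul hbpos.ne' (mul_pos hpP1 hpP2).ne', Real.log_mul hpP1.ne' hpP2.ne', hlogb]
      at this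
    linarith
  · intro a ha
    rw [hOv] at ha
    have hk : 0 < Real.exp (a + C0 (finrank ℝ E) Λ) ^ 2 := by positivity
    have hkdet : (Real.exp (a + C0 (finrank ℝ E) Λ) ^ 2)⁻¹ * (Λ ^ 2 + 1) ^ (finrank ℝ E) *
        (LinearMap.det P1 * LinearMap.det P2) ≤ LinearMap.det (P1 + P2) := by
      rw [← Real.log_le_log_iff (by positivity) hpP12, Real.log_mul (by positivity) (by positivity),
        Real.log_mul (by positivity) (by positivity), Real.log_mul hpP1.ne' hpP2.ne', hlogb,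
        Real.log_inv, Real.log_pow, Real.log_exp]
      push_cast
      linarith
    obtain ⟨π1, π2, hπ, hcost⟩ := hS2 _ hk hkdet
    refine ⟨LinearMap.toContinuousLinearMap (Fi ∘ₗ π1), LinearMap.toContinuousLinearMap π2,
      ?_, ?_⟩
    · intro v
      simp only [LinearMap.coe_toContinuousLinearMap', LinearMap.comp_apply]
      rw [← hx, hFFi]
      exact hπ v
    · intro v
      have h7 := hcost v
      rw [hP1, Gm_inner] at h7
      change _ + ⟪Gm Dm S m y (π2 v), π2 v⟫ ≤ _ at h7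
      rw [Gm_inner] at h7
      simpa only [LinearMap.coe_toContinuousLinearMap', LinearMap.comp_apply, ← hx] using h7

end Vale.Agent.P109.C443
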