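import Vale.Agent.P109.C443.Orbit
import Vale.Agent.P109.H644.Green

/-!
P109, block S1a (helper443): persistence of good splittings and Green operators.
-/

set_option linter.unusedSectionVars false

namespace Vale.Agent.P109.C443

open scoped RealInnerProductSpace
open Module

variable {E : Type*} [NormedAddCommGroup E] [InnerProductSpace ℝ E] [FiniteDimensional ℝ E]
variable {Ω : Type*}

theorem iter_symm (S : Ω ≃ Ω) (a b : ℕ) (x : Ω) (hab : a ≤ b) :
    S^[a] (S.symm^[b] x) = S.symm^[b - a] x := by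
  have h0 : Function.LeftInverse S S.symm := S.apply_symm_apply
  have h1 : b = a + (b - a) := by omega
  conv_lhs => rw [h1, Function.iterate_add_apply]
  exact h0.iterate a _

theorem iter_symm' (S : Ω ≃ Ω) (a b : ℕ) (x : Ω) (hab : a ≤ b) :
    S.symm^[a] (S^[b] x) = S^[b - a] x := iter_symm S.symm a b x hab

/-- persistence (h4): a good splitting at time `u` for the long window gives a good splitting at
time `0` for the short one. -/
theorem GoodAt.persist {Dm : Ω → E →L[ℝ] E} {S : Ω ≃ Ω} {Λ : ℝ} (h : CocBd Dm Λ) {m u : ℕ}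
    {K : ℝ} (hK : 0 ≤ K) {x : Ω} (hu : u ≤ m) (hg : GoodAt Dm S (2 * m) K (S^[u] x)) :
    GoodAt Dm S m (K * (1 + u * Λ ^ (2 * u)) * Λ ^ u) x := by
  have hΛ0 : 0 ≤ Λ := zero_le_one.trans h.one_le
  obtain ⟨φ, π, h1, h2⟩ := hg
  set y := S^[u] x with hy
  set x0 := S.symm^[2 * m] y with hx0
  set x1 := S.symm^[m] x with hx1
  have hx01 : S^[m - u] x0 = x1 := by
    rw [hx0, iter_symm S _ _ _ (by omega)]
    have : 2 * m - (m - u) = m + u := by omega
    rw [this, Function.iterate_add_apply, hy, iter_symm' S u u x le_rfl, Nat.sub_self]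
    rfl
  have hx1x : S^[m] x1 = x := by rw [hx1, iter_symm S _ _ _ le_rfl, Nat.sub_self]; rfl
  -- `fw (2m) x0 = fw u x ∘ fw m x1 ∘ fw (m-u) x0`
  have hfac : ∀ w, fw Dm S (2 * m) x0 w
      = fw Dm S u x (fw Dm S m x1 (fw Dm S (m - u) x0 w)) := by
    intro w
    have e : 2 * m = (m - u) + (m + u) := by omega
    rw [e, fw_add, fw_add, hx01, hx1x]
  let A : E →L[ℝ] E := fw Dm S u x
  let φ' : E →L[ℝ] E := (fw Dm S (m - u) x0).comp (φ.comp A)
  let π' : E →L[ℝ] E := ContinuousLinearMap.id ℝ E - (fw Dm S m x1).comp φ'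
  have hAπ : ∀ v, fw Dm S u x (π' v) = π (A v) := by
    intro v
    have e1 : π' v = v - fw Dm S m x1 (fw Dm S (m - u) x0 (φ (A v))) := rfl
    rw [e1, map_sub, ← hfac]
    have := h1 (A v)
    rw [sub_eq_iff_eq_add, add_comm, this]
  have hA : ∀ v, ‖A v‖ ≤ Λ ^ u * ‖v‖ := fw_up (S := S) h u x
  refine ⟨φ', π', ?_, ?_⟩
  · intro v
    change fw Dm S m x1 (φ' v) + (v - fw Dm S m x1 (φ' v)) = v
    abel
  · intro v
    have hc := h2 (A v)
    set P := ∑ t ∈ Finset.range (2 * m), ‖fw Dm S t x0 (φ (A v))‖ ^ 2 with hP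
    set Q := ∑ t ∈ Finset.range (2 * m), ‖fw Dm S t y (π (A v))‖ ^ 2 with hQ
    have hP0 : 0 ≤ P := Finset.sum_nonneg fun _ _ => sq_nonneg _
    have hQ0 : 0 ≤ Q := Finset.sum_nonneg fun _ _ => sq_nonneg _
    -- past part
    have hpast : ∑ t ∈ Finset.range m, ‖fw Dm S t x1 (φ' v)‖ ^ 2 ≤ P := by
      have e2 : ∀ t, fw Dm S t x1 (φ' v) = fw Dm S ((m - u) + t) x0 (φ (A v)) := by
        intro t
        rw [fw_add, hx01]; rfl
      calc ∑ t ∈ Finset.range m, ‖fw Dm S t x1 (φ' v)‖ ^ 2
          = ∑ t ∈ Finset.range m, ‖fw Dm S ((m - u) + t) x0 (φ (A v))‖ ^ 2 :=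
            Finset.sum_congr rfl fun t _ => by rw [e2]
        _ ≤ ∑ t ∈ Finset.range ((m - u) + m), ‖fw Dm S t x0 (φ (A v))‖ ^ 2 := by
            rw [Finset.sum_range_add]
            exact le_add_of_nonneg_left (Finset.sum_nonneg fun _ _ => sq_nonneg _)
        _ ≤ P := by
            rw [hP]
            refine Finset.sum_le_sum_of_subset_of_nonneg ?_ fun _ _ _ => sq_nonneg _
            intro t ht
            rw [Finset.mem_range] at ht ⊢
            omega
    -- future part
    have hfut : ∑ t ∈ Finset.range m, ‖fw Dm S t x (π' v)‖ ^ 2 ≤ (1 + u * Λ ^ (2 * u)) * Q := by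
      by_cases hm : m = 0
      · subst hm
        simp only [Finset.range_zero, Finset.sum_empty]
        positivity
      have hπ0 : ‖π (A v)‖ ^ 2 ≤ Q := by
        have := Finset.single_le_sum (f := fun t => ‖fw Dm S t y (π (A v))‖ ^ 2)
          (s := Finset.range (2 * m)) (fun t _ => sq_nonneg _)
          (Finset.mem_range.2 (by omega : 0 < 2 * m))
        simpa using this
      have e3 : m = u + (m - u) := by omega
      rw [e3, Finset.sum_range_add, add_mul, add_comm, one_mul]
      refine add_le_add ?_ ?_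
      · calc ∑ t ∈ Finset.range (m - u), ‖fw Dm S (u + t) x (π' v)‖ ^ 2
            = ∑ t ∈ Finset.range (m - u), ‖fw Dm S t y (π (A v))‖ ^ 2 :=
              Finset.sum_congr rfl fun t _ => by rw [fw_add, hAπ]
          _ ≤ Q := by
            rw [hQ]
            refine Finset.sum_le_sum_of_subset_of_nonneg ?_ fun _ _ _ => sq_nonneg _
            intro t ht
            rw [Finset.mem_range] at ht ⊢
            omega
      · calc ∑ t ∈ Finset.range u, ‖fw Dm S t x (π' v)‖ ^ 2
            ≤ ∑ _t ∈ Finset.range u, Λ ^ (2 * u) * Q := by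
              refine Finset.sum_le_sum fun t ht => ?_
              rw [Finset.mem_range] at ht
              have e4 : fw Dm S u x (π' v)
                  = fw Dm S (u - t) (S^[t] x) (fw Dm S t x (π' v)) := by
                rw [← fw_add]; congr 2; omega
              have e5 : ‖fw Dm S t x (π' v)‖ ≤ Λ ^ (u - t) * ‖π (A v)‖ := by
                rw [← hAπ, e4]
                exact fw_low (S := S) h (u - t) _ _
              have e6 : Λ ^ (u - t) ≤ Λ ^ u := pow_le_pow_right₀ h.one_le (by omega)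
              have e7 : ‖fw Dm S t x (π' v)‖ ≤ Λ ^ u * ‖π (A v)‖ :=
                e5.trans (mul_le_mul_of_nonneg_right e6 (norm_nonneg _))
              calc ‖fw Dm S t x (π' v)‖ ^ 2 ≤ (Λ ^ u * ‖π (A v)‖) ^ 2 :=
                    pow_le_pow_left₀ (norm_nonneg _) e7 2
                _ = Λ ^ (2 * u) * ‖π (A v)‖ ^ 2 := by ring
                _ ≤ _ := mul_le_mul_of_nonneg_left hπ0 (by positivity)
          _ = u * Λ ^ (2 * u) * Q := by
              rw [Finset.sum_const, Finset.card_range, nsmul_eq_mul]; ring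
    have hfac1 : 1 ≤ 1 + (u : ℝ) * Λ ^ (2 * u) := le_add_of_nonneg_right (by positivity)
    calc _ ≤ P + (1 + u * Λ ^ (2 * u)) * Q := add_le_add hpast hfut
      _ ≤ (1 + u * Λ ^ (2 * u)) * P + (1 + u * Λ ^ (2 * u)) * Q := by
          have := le_mul_of_one_le_left hP0 hfac1
          linarith
      _ = (1 + u * Λ ^ (2 * u)) * (P + Q) := by ring
      _ ≤ (1 + u * Λ ^ (2 * u)) * (K ^ 2 * ‖A v‖ ^ 2) :=
          mul_le_mul_of_nonneg_left hc (by positivity)
      _ ≤ (1 + u * Λ ^ (2 * u)) * (K ^ 2 * (Λ ^ u * ‖v‖) ^ 2) := by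
          refine mul_le_mul_of_nonneg_left ?_ (by positivity)
          exact mul_le_mul_of_nonneg_left (pow_le_pow_left₀ (norm_nonneg _) (hA v) 2) (sq_nonneg _)
      _ = (1 + u * Λ ^ (2 * u)) * 1 * (K ^ 2 * (Λ ^ u) ^ 2 * ‖v‖ ^ 2) := by ring
      _ ≤ (1 + u * Λ ^ (2 * u)) * (1 + u * Λ ^ (2 * u)) * (K ^ 2 * (Λ ^ u) ^ 2 * ‖v‖ ^ 2) := by
          refine mul_le_mul_of_nonneg_right ?_ (by positivity)
          exact mul_le_mul_of_nonneg_left hfac1 (by positivity)
      _ = _ := by ring

/-- (h6): good splittings at all times `1 ≤ τ ≤ n` give the Green operators. -/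
theorem good_of_goodAt {Dm : Ω → E →L[ℝ] E} {S : Ω ≃ Ω} {n : ℕ} {K : ℝ} (hK : 0 ≤ K) {x : Ω}
    (hg : ∀ τ, 1 ≤ τ → τ ≤ n → GoodAt Dm S n K (S^[τ] x)) :
    S3.Good n (fun t => Dm (S^[t] x)) K := by
  classical
  choose! φ π h1 h2 using hg
  -- base point for `τ`
  let x0 : ℕ → Ω := fun τ => S.symm^[n] (S^[τ] x)
  have hx0 : ∀ τ k, τ ≤ n → n ≤ k + τ → S^[k] (x0 τ) = S^[k + τ - n] x := by
    intro τ k hτ hk
    have e1 : k = (n - τ) + (k + τ - n) := by omega
    have e2 : S^[n - τ] (x0 τ) = x := by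
      simp only [x0]
      rw [iter_symm S _ _ _ (by omega)]
      have : n - (n - τ) = τ := by omega
      rw [this, iter_symm' S _ _ _ le_rfl, Nat.sub_self]
      rfl
    conv_lhs => rw [e1, add_comm, Function.iterate_add_apply, e2]
  refine ⟨fun τ t => if t < τ then - (fw Dm S (n - τ + t) (x0 τ)).comp (φ τ)
    else (fw Dm S (t - τ) (S^[τ] x)).comp (π τ), ?_, ?_⟩
  · intro τ hτ1 hτ t ht
    rcases lt_trichotomy (t + 1) τ with hc | hc | hc
    · have hc1 : t < τ := by omega
      have hne : t + 1 ≠ τ := hc.ne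
      simp only [hc, hc1, hne, if_true, if_false, add_zero]
      ext v
      simp only [ContinuousLinearMap.neg_apply, ContinuousLinearMap.comp_apply, map_neg, neg_inj]
      rw [← Nat.add_assoc, fw_succ_apply, hx0 τ (n - τ + t) hτ (by omega)]
      congr 3
      omega
    · have hc1 : t < τ := by omega
      have hnl : ¬ t + 1 < τ := by omega
      simp only [hc, hc1, if_true, lt_irrefl, if_false]
      ext v
      simp only [ContinuousLinearMap.add_apply, ContinuousLinearMap.neg_apply,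
        ContinuousLinearMap.comp_apply, map_neg, ContinuousLinearMap.id_apply, Nat.sub_self,
        fw_zero]
      have h3 := h1 τ hτ1 hτ v
      have e3 : n = (n - τ + t) + 1 := by omega
      have e4 : fw Dm S n (S.symm^[n] (S^[τ] x)) (φ τ v)
          = Dm (S^[t] x) (fw Dm S (n - τ + t) (x0 τ) (φ τ v)) := by
        have e5 : fw Dm S n (S.symm^[n] (S^[τ] x)) (φ τ v)
            = fw Dm S ((n - τ + t) + 1) (x0 τ) (φ τ v) := by
          rw [← e3]
        rw [e5, fw_succ_apply, hx0 τ (n - τ + t) hτ (by omega)]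
        congr 3
        omega
      rw [e4] at h3
      rw [eq_comm, neg_add_eq_sub, sub_eq_iff_eq_add, add_comm]
      exact h3.symm
    · have hc1 : ¬ t < τ := by omega
      have hnl : ¬ t + 1 < τ := by omega
      have hne : t + 1 ≠ τ := by omega
      simp only [hnl, hc1, hne, if_false, add_zero]
      ext v
      simp only [ContinuousLinearMap.comp_apply]
      have e6 : t + 1 - τ = (t - τ) + 1 := by omega
      rw [e6, fw_succ_apply, ← Function.iterate_add_apply]
      congr 3
      omega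
  · intro τ hτ1 hτ t ht
    have hpos : 0 < n := by omega
    by_cases hc : t < τ
    · simp only [hc, if_true, norm_neg]
      refine ContinuousLinearMap.opNorm_le_bound _ hK fun v => ?_
      have h3 := h2 τ hτ1 hτ v
      have h4 := Finset.single_le_sum
        (f := fun t => ‖fw Dm S t (S.symm^[n] (S^[τ] x)) (φ τ v)‖ ^ 2)
        (s := Finset.range n) (fun t _ => sq_nonneg _)
        (Finset.mem_range.2 (by omega : n - τ + t < n))
      have h5 : 0 ≤ ∑ t ∈ Finset.range n, ‖fw Dm S t (S^[τ] x) (π τ v)‖ ^ 2 :=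
        Finset.sum_nonneg fun _ _ => sq_nonneg _
      have h6 : ‖fw Dm S (n - τ + t) (x0 τ) (φ τ v)‖ ^ 2 ≤ (K * ‖v‖) ^ 2 := by
        rw [mul_pow]
        exact (h4.trans (le_add_of_nonneg_right h5)).trans h3
      exact (pow_le_pow_iff_left₀ (norm_nonneg _) (by positivity) two_ne_zero).1 h6
    · simp only [hc, if_false]
      refine ContinuousLinearMap.opNorm_le_bound _ hK fun v => ?_
      have h3 := h2 τ hτ1 hτ v
      have h4 := Finset.single_le_sum
        (f := fun t => ‖fw Dm S t (S^[τ] x) (π τ v)‖ ^ 2)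
        (s := Finset.range n) (fun t _ => sq_nonneg _)
        (Finset.mem_range.2 (by omega : t - τ < n))
      have h5 : 0 ≤ ∑ t ∈ Finset.range n, ‖fw Dm S t (S.symm^[n] (S^[τ] x)) (φ τ v)‖ ^ 2 :=
        Finset.sum_nonneg fun _ _ => sq_nonneg _
      have h6 : ‖fw Dm S (t - τ) (S^[τ] x) (π τ v)‖ ^ 2 ≤ (K * ‖v‖) ^ 2 := by
        rw [mul_pow]
        exact (h4.trans (le_add_of_nonneg_left h5)).trans h3
      exact (pow_le_pow_iff_left₀ (norm_nonneg _) (by positivity) two_ne_zero).1 h6

end Vale.Agent.P109.C443
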